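import Mathlib

/-!
# Row 111: multiple operator integrals, I (helper45)

A *word* is a bounded multilinear map `W` on `∏ C(X i, ℂ)`.  `HasMOI W k e` says that the Riemann
sums `∑ k(x_r) W(φ_r)` along fine partitions of unity converge to `e`.
-/

set_option autoImplicit false

namespace Crest.Agent.N111.MOI

open Filter Topology MeasureTheory TopologicalSpace
open scoped BigOperators

/-- a finite partition of unity with marked points -/
structure PU (X : Type) [TopologicalSpace X] where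
  J : Type
  [fin : Fintype J]
  pt : J → X
  φ : J → C(X, ℝ)
  nonneg : ∀ j x, 0 ≤ φ j x
  sum_one : ∀ x, ∑ j, φ j x = 1

attribute [instance] PU.fin

section one

variable {X : Type} [TopologicalSpace X]

/-- real functions as complex functions -/
noncomputable def ofR (f : C(X, ℝ)) : C(X, ℂ) := ⟨fun x => (f x : ℂ), by fun_prop⟩

@[simp] theorem ofR_apply (f : C(X, ℝ)) (x : X) : ofR f x = (f x : ℂ) := rfl

theorem tsupport_ofR (f : C(X, ℝ)) : tsupport (ofR f) = tsupport f := by
  unfold tsupport; congr 1; ext x; simp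

theorem PU.sum_ofR (p : PU X) : ∑ j, ofR (p.φ j) = 1 := by
  ext x
  simp only [ContinuousMap.coe_sum, Finset.sum_apply, ofR_apply, ContinuousMap.one_apply]
  exact_mod_cast p.sum_one x

/-- the mesh of the partitions tends to zero -/
def Fine (p : ℕ → PU X) : Prop :=
  ∀ U ∈ 𝓝ˢ (Set.diagonal X), ∀ᶠ n in atTop, ∀ j, ∀ y ∈ tsupport ((p n).φ j), ((p n).pt j, y) ∈ U

theorem exists_PU {X : Type} [PseudoMetricSpace X] [CompactSpace X] {ε : ℝ} (hε : 0 < ε) :
    ∃ p : PU X, ∀ j, tsupport (p.φ j) ⊆ Metric.ball (p.pt j) ε := by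
  obtain ⟨t, ht⟩ := isCompact_univ.elim_finite_subcover (fun x : X => Metric.ball x ε)
    (fun _ => Metric.isOpen_ball) fun x _ => Set.mem_iUnion.2 ⟨x, Metric.mem_ball_self hε⟩
  obtain ⟨f, hf⟩ := PartitionOfUnity.exists_isSubordinate (ι := t) isClosed_univ
    (fun j => Metric.ball (j : X) ε) (fun _ => Metric.isOpen_ball) fun x hx => by
      obtain ⟨y, hy, h⟩ := Set.mem_iUnion₂.1 (ht hx)
      exact Set.mem_iUnion.2 ⟨⟨y, hy⟩, h⟩
  exact ⟨⟨t, fun j => j, fun j => f j, fun j x => f.nonneg j x, fun x => by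
    rw [← finsum_eq_sum_of_fintype]; exact f.sum_eq_one (Set.mem_univ x)⟩, hf⟩

theorem exists_fine (X : Type) [TopologicalSpace X] [CompactSpace X] [PseudoMetrizableSpace X] :
    ∃ p : ℕ → PU X, Fine p := by
  let := pseudoMetrizableSpacePseudoMetric X
  choose p hp using fun n : ℕ => exists_PU (X := X) (Nat.one_div_pos_of_nat (α := ℝ) (n := n))
  refine ⟨p, fun U hU => ?_⟩
  rw [nhdsSet_diagonal_eq_uniformity] at hU
  obtain ⟨δ, hδ, h⟩ := Metric.mem_uniformity_dist.1 hU
  filter_upwards [tendsto_one_div_add_atTop_nhds_zero_nat.eventually_lt_const hδ] with n hn j y hy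
  exact h ((Metric.mem_ball'.1 (hp n j hy)).trans hn)

theorem Fine.ball {X : Type} [PseudoMetricSpace X] {p : ℕ → PU X} (h : Fine p) {δ : ℝ}
    (hδ : 0 < δ) : ∀ᶠ n in atTop, ∀ j, tsupport ((p n).φ j) ⊆ Metric.ball ((p n).pt j) δ := by
  refine (h {q | dist q.1 q.2 < δ} ?_).mono fun n hn j y hy => Metric.mem_ball'.2 (hn j y hy)
  refine (isOpen_lt (by fun_prop) continuous_const).mem_nhdsSet.2 ?_
  rintro ⟨x, y⟩ (rfl : x = y)
  simpa using hδ

/-- the interpolation operator of a partition of unity -/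
noncomputable def PU.P (p : PU X) (f : C(X, ℂ)) : C(X, ℂ) := ∑ j, f (p.pt j) • ofR (p.φ j)

theorem PU.norm_comb_le (p : PU X) (c : p.J → ℂ) (x : X) {C : ℝ}
    (h : ∀ j, p.φ j x ≠ 0 → ‖c j‖ ≤ C) : ‖∑ j, c j * (p.φ j x : ℂ)‖ ≤ C := by
  refine (norm_sum_le _ _).trans ?_
  rw [← mul_one C, ← p.sum_one x, Finset.mul_sum]
  refine Finset.sum_le_sum fun j _ => ?_
  rw [norm_mul, Complex.norm_real, Real.norm_of_nonneg (p.nonneg j x)]
  by_cases h0 : p.φ j x = 0
  · simp [h0]
  · exact mul_le_mul_of_nonneg_right (h j h0) (p.nonneg j x)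

variable [CompactSpace X]

theorem PU.norm_P_le (p : PU X) (f : C(X, ℂ)) : ‖p.P f‖ ≤ ‖f‖ :=
  (ContinuousMap.norm_le _ (norm_nonneg _)).2 fun x => by
    simpa [PU.P] using p.norm_comb_le (fun j => f (p.pt j)) x fun j _ => f.norm_coe_le_norm _

theorem Fine.tendsto_P {p : ℕ → PU X} (h : Fine p) (f : C(X, ℂ)) :
    Tendsto (fun n => (p n).P f) atTop (𝓝 f) := by
  refine Metric.tendsto_nhds.2 fun ε hε => ?_
  have hU : {q : X × X | ‖f q.1 - f q.2‖ < ε / 2} ∈ 𝓝ˢ (Set.diagonal X) := by
    refine (isOpen_lt (by fun_prop) continuous_const).mem_nhdsSet.2 ?_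
    rintro ⟨x, y⟩ (rfl : x = y)
    simpa using hε
  filter_upwards [h _ hU] with n hn
  rw [dist_eq_norm]
  refine lt_of_le_of_lt ((ContinuousMap.norm_le _ (by positivity)).2 fun x => ?_) (half_lt_self hε)
  have h1 := (p n).norm_comb_le (fun j => f ((p n).pt j) - f x) x fun j hj =>
    (hn j x (subset_tsupport _ hj)).le
  have h2 : ∑ j, ((p n).φ j x : ℂ) = 1 := by exact_mod_cast (p n).sum_one x
  simpa [PU.P, sub_mul, Finset.sum_sub_distrib, ← Finset.mul_sum, h2] using h1

end one

variable {ι : Type} [Fintype ι] {X : ι → Type} [∀ i, TopologicalSpace (X i)]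
  [∀ i, CompactSpace (X i)] {E : Type*} [NormedAddCommGroup E] [NormedSpace ℂ E]

/-- bounded multilinear maps on continuous functions -/
abbrev Word (X : ι → Type) [∀ i, TopologicalSpace (X i)] [∀ i, CompactSpace (X i)] (E : Type*)
    [NormedAddCommGroup E] [NormedSpace ℂ E] :=
  ContinuousMultilinearMap ℂ (fun i => C(X i, ℂ)) E

/-- `W` vanishes on functions supported near `x` -/
def NullAt (W : Word X E) (x : ∀ i, X i) : Prop :=
  ∃ U : ∀ i, Set (X i), (∀ i, U i ∈ 𝓝 (x i)) ∧
    ∀ f : ∀ i, C(X i, ℂ), (∀ i, tsupport (f i) ⊆ U i) → W f = 0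

/-- the support of a word -/
def supp (W : Word X E) : Set (∀ i, X i) := {x | ¬ NullAt W x}

omit [Fintype ι] in
theorem NullAt.eventually [Finite ι] {W : Word X E} {x : ∀ i, X i} (h : NullAt W x) :
    ∀ᶠ y in 𝓝 x, NullAt W y := by
  obtain ⟨U, hU, h⟩ := h
  have : ∀ᶠ y in 𝓝 x, ∀ i, U i ∈ 𝓝 (y i) := eventually_all.2 fun i =>
    (continuous_apply i).continuousAt.eventually (eventually_mem_nhds_iff.2 (hU i))
  exact this.mono fun y hy => ⟨U, hy, h⟩

omit [Fintype ι] in
theorem isClosed_supp [Finite ι] (W : Word X E) : IsClosed (supp W) :=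
  isOpen_compl_iff.1 (isOpen_iff_mem_nhds.2 fun _ hx =>
    (NullAt.eventually (not_not.1 hx)).mono fun _ hy => not_not.2 hy)

open Classical in
/-- Riemann sum of the kernel `k` -/
noncomputable def S (W : Word X E) (p : ∀ i, PU (X i)) (k : (∀ i, X i) → ℂ) : E :=
  ∑ r : ∀ i, (p i).J, k (fun i => (p i).pt (r i)) • W fun i => ofR ((p i).φ (r i))

/-- `e` is the multiple integral of the kernel `k` against the word `W` -/
def HasMOI (W : Word X E) (k : (∀ i, X i) → ℂ) (e : E) : Prop :=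
  ∀ p : ∀ i, ℕ → PU (X i), (∀ i, Fine (p i)) →
    Tendsto (fun n => S W (fun i => p i n) k) atTop (𝓝 e)

theorem S_prod (W : Word X E) (p : ∀ i, PU (X i)) (f : ∀ i, C(X i, ℂ)) :
    S W p (fun x => ∏ i, f i (x i)) = W fun i => (p i).P (f i) := by
  classical
  simp only [S, PU.P]
  rw [W.map_sum]
  exact Finset.sum_congr (by congr) fun r _ => (W.map_smul_univ _ _).symm

variable {W : Word X E} {k k' : (∀ i, X i) → ℂ} {e e' : E}

theorem HasMOI.add (h : HasMOI W k e) (h' : HasMOI W k' e') :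
    HasMOI W (fun x => k x + k' x) (e + e') := fun p hp => by
  simpa only [S, add_smul, Finset.sum_add_distrib] using (h p hp).add (h' p hp)

theorem HasMOI.sub (h : HasMOI W k e) (h' : HasMOI W k' e') :
    HasMOI W (fun x => k x - k' x) (e - e') := fun p hp => by
  simpa only [S, sub_smul, Finset.sum_sub_distrib] using (h p hp).sub (h' p hp)

theorem HasMOI.smul (h : HasMOI W k e) (c : ℂ) : HasMOI W (fun x => c * k x) (c • e) :=
  fun p hp => by simpa only [S, mul_smul, ← Finset.smul_sum] using (h p hp).const_smul c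

theorem hasMOI_zero : HasMOI W (fun _ => 0) 0 := fun p _ => by simp [S]

theorem HasMOI.sum {κ : Type*} (s : Finset κ) {k : κ → (∀ i, X i) → ℂ} {e : κ → E}
    (h : ∀ j ∈ s, HasMOI W (k j) (e j)) : HasMOI W (fun x => ∑ j ∈ s, k j x) (∑ j ∈ s, e j) := by
  classical
  induction s using Finset.induction_on with
  | empty => simpa using hasMOI_zero
  | insert a s ha ih =>
    simp only [Finset.sum_insert ha]
    exact (h a (Finset.mem_insert_self _ _)).add (ih fun j hj => h j (Finset.mem_insert_of_mem hj))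

theorem HasMOI.map {F : Type*} [NormedAddCommGroup F] [NormedSpace ℂ F] (h : HasMOI W k e)
    (L : E →L[ℂ] F) : HasMOI (L.compContinuousMultilinearMap W) k (L e) := fun p hp => by
  simpa [S, Function.comp_def] using (L.continuous.tendsto e).comp (h p hp)

/-- simple tensors -/
theorem hasMOI_prod (W : Word X E) (f : ∀ i, C(X i, ℂ)) :
    HasMOI W (fun x => ∏ i, f i (x i)) (W f) := fun p hp => by
  simp only [S_prod]
  exact (W.cont.tendsto f).comp (tendsto_pi_nhds.2 fun i => (hp i).tendsto_P (f i))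

/-- integrals of simple tensors -/
theorem hasMOI_integral [CompleteSpace E] (W : Word X E) {Ω : Type*} [MeasurableSpace Ω]
    (ν : Measure Ω) (c : Ω → ℂ) (f : Ω → ∀ i, C(X i, ℂ)) (hc : AEStronglyMeasurable c ν)
    (hf : ∀ i, AEStronglyMeasurable (fun ω => f ω i) ν)
    (hi : Integrable (fun ω => ‖c ω‖ * ∏ i, ‖f ω i‖) ν) :
    HasMOI W (fun x => ∫ ω, c ω * ∏ i, f ω i (x i) ∂ν) (∫ ω, c ω • W (f ω) ∂ν) := by
  classical
  intro p hp
  have hm : ∀ x : ∀ i, X i, AEStronglyMeasurable (fun ω => c ω * ∏ i, f ω i (x i)) ν := fun x =>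
    hc.mul (Finset.aestronglyMeasurable_fun_prod _ fun i _ =>
      (continuous_eval_const (x i)).comp_aestronglyMeasurable (hf i))
  have hI : ∀ x : ∀ i, X i, Integrable (fun ω => c ω * ∏ i, f ω i (x i)) ν := fun x =>
    hi.mono' (hm x) (Eventually.of_forall fun ω => by
      rw [norm_mul, norm_prod]
      exact mul_le_mul_of_nonneg_left (Finset.prod_le_prod (fun _ _ => norm_nonneg _)
        fun i _ => (f ω i).norm_coe_le_norm _) (norm_nonneg _))
  have h1 : ∀ q : ∀ i, PU (X i), S W q (fun x => ∫ ω, c ω * ∏ i, f ω i (x i) ∂ν) =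
      ∫ ω, c ω • W (fun i => (q i).P (f ω i)) ∂ν := fun q => by
    simp only [← S_prod, S, Finset.smul_sum, smul_smul]
    rw [integral_finsetSum _ fun r _ => (hI _).smul_const _]
    exact Finset.sum_congr rfl fun r _ => (integral_smul_const _ _).symm
  simp only [h1]
  refine tendsto_integral_of_dominated_convergence (fun ω => ‖W‖ * (‖c ω‖ * ∏ i, ‖f ω i‖))
    (fun n => ?_) (hi.const_mul _) (fun n => Eventually.of_forall fun ω => ?_)
    (Eventually.of_forall fun ω => ?_)
  · simp only [← S_prod, S, Finset.smul_sum, smul_smul]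
    exact Finset.aestronglyMeasurable_fun_sum _ fun r _ => (hm _).smul_const _
  · rw [norm_smul, mul_left_comm]
    refine mul_le_mul_of_nonneg_left ((W.le_opNorm _).trans (mul_le_mul_of_nonneg_left
      (Finset.prod_le_prod (fun _ _ => norm_nonneg _) fun i _ => PU.norm_P_le _ _)
      (norm_nonneg _))) (norm_nonneg _)
  · exact ((W.cont.tendsto _).comp
      (tendsto_pi_nhds.2 fun i => (hp i).tendsto_P (f ω i))).const_smul _

variable [∀ i, PseudoMetrizableSpace (X i)]

theorem HasMOI.unique (h : HasMOI W k e) (h' : HasMOI W k e') : e = e' := by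
  choose p hp using fun i => exists_fine (X i)
  exact tendsto_nhds_unique (h p hp) (h' p hp)

/-- Only the germ of the kernel along the support matters. -/
theorem HasMOI.congr (h : HasMOI W k e) (hk : k =ᶠ[𝓝ˢ (supp W)] k') : HasMOI W k' e := by
  classical
  intro p hp
  let := fun i => pseudoMetrizableSpacePseudoMetric (X i)
  obtain ⟨O, hO, hs, hOk⟩ := mem_nhdsSet_iff_exists.1 hk
  have h1 : ∀ x : ∀ i, X i, ∃ B : Set (∀ i, X i), IsOpen B ∧ x ∈ B ∧ (B ⊆ O ∨
      ∀ f : ∀ i, C(X i, ℂ), Set.univ.pi (fun i => tsupport (f i)) ⊆ B → W f = 0) := fun x => by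
    by_cases hx : x ∈ supp W
    · exact ⟨O, hO, hs hx, Or.inl subset_rfl⟩
    obtain ⟨U, hU, h⟩ := not_not.1 hx
    refine ⟨Set.univ.pi fun i => interior (U i), isOpen_set_pi Set.finite_univ
      fun _ _ => isOpen_interior, fun i _ => mem_interior_iff_mem_nhds.2 (hU i),
      Or.inr fun f hf => ?_⟩
    rcases Set.univ_pi_subset_univ_pi_iff.1 hf with h2 | ⟨i, hi⟩
    · exact h f fun i => (h2 i).trans interior_subset
    · exact W.map_coord_zero i (by ext y; exact congrFun (tsupport_eq_empty_iff.1 hi) y)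
  choose B hB hxB hB' using h1
  obtain ⟨δ, hδ, hL⟩ := lebesgue_number_lemma_of_metric (s := Set.univ) isCompact_univ hB
    fun x _ => Set.mem_iUnion.2 ⟨x, hxB x⟩
  refine (h p hp).congr' ?_
  filter_upwards [eventually_all.2 fun i => (hp i).ball hδ] with n hn
  refine Finset.sum_congr rfl fun r _ => ?_
  obtain ⟨x, hx⟩ := hL (fun i => (p i n).pt (r i)) (Set.mem_univ _)
  rcases hB' x with h2 | h2
  · rw [hOk (h2 (hx (Metric.mem_ball_self hδ)))]
  · rw [h2 _ fun y hy => hx (Metric.mem_ball.2 <| (dist_pi_lt_iff hδ).2 fun i =>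
      hn i (r i) (tsupport_ofR ((p i n).φ (r i)) ▸ hy i (Set.mem_univ _))), smul_zero, smul_zero]

/-- Two values for kernels with the same germ along the support agree. -/
theorem HasMOI.eq_of_germ (h : HasMOI W k e) (h' : HasMOI W k' e') (hk : k =ᶠ[𝓝ˢ (supp W)] k') :
    e = e' := (h.congr hk).unique h'

theorem HasMOI.eq_zero (h : HasMOI W k e) (hk : ∀ x ∈ supp W, ∀ᶠ y in 𝓝 x, k y = 0) : e = 0 :=
  h.eq_of_germ hasMOI_zero (eventually_nhdsSet_iff_forall.2 hk)

/-- The support lemma. -/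
theorem eq_zero_of_nullAt (W : Word X E) (f : ∀ i, C(X i, ℂ))
    (h : ∀ x : ∀ i, X i, (∀ i, x i ∈ tsupport (f i)) → NullAt W x) : W f = 0 := by
  refine (hasMOI_prod W f).eq_zero fun x hx => ?_
  obtain ⟨i, hi⟩ := not_forall.1 fun h' => hx (h x h')
  have := (continuous_apply i).continuousAt.eventually (notMem_tsupport_iff_eventuallyEq.1 hi)
  exact this.mono fun y hy => Finset.prod_eq_zero (Finset.mem_univ i) hy

end Crest.Agent.N111.MOI
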