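import Crest.Agent.N111.MOI.Basic

/-!
# Row 111: multiple operator integrals, II: kernels `φ (∑ i, h i (x i))` (helper45)

For a smooth compactly supported `φ` on a finite-dimensional space, the kernel
`φ (∑ i, h i (x i)) * ∏ i, f i (x i)` has an integral `moi W φ h f`, bounded independently of `h`
and Lipschitz in `h`.
-/

set_option autoImplicit false

namespace Crest.Agent.N111.MOI

open Filter Topology MeasureTheory TopologicalSpace
open scoped BigOperators FourierTransform ContDiff RealInnerProductSpace Real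

variable {V : Type} [NormedAddCommGroup V] [NormedSpace ℝ V] [FiniteDimensional ℝ V]

/-- smooth with compact support -/
structure Test (φ : V → ℂ) : Prop where
  smooth : ContDiff ℝ ∞ φ
  cpt : HasCompactSupport φ

/-- frequencies -/
abbrev Fq (V : Type) [NormedAddCommGroup V] [NormedSpace ℝ V] : Type :=
  EuclideanSpace ℝ (Fin (Module.finrank ℝ V))

/-- the Fourier transform in linear coordinates -/
noncomputable def ft (φ : V → ℂ) : Fq V → ℂ := 𝓕 fun w => φ (toEuclidean.symm w)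

/-- the `L¹` norm of the Fourier transform -/
noncomputable def A (φ : V → ℂ) : ℝ := ∫ ξ, ‖ft φ ξ‖

/-- the Lipschitz constant -/
noncomputable def A1 (φ : V → ℂ) : ℝ :=
  ∫ ξ, 2 * π * ‖(toEuclidean (E := V) : V →L[ℝ] Fq V)‖ * (‖ξ‖ * ‖ft φ ξ‖)

theorem A_nonneg (φ : V → ℂ) : 0 ≤ A φ := integral_nonneg fun _ => norm_nonneg _

theorem A1_nonneg (φ : V → ℂ) : 0 ≤ A1 φ := integral_nonneg fun _ => by positivity

/-- the Schwartz function of a test function -/
noncomputable def Test.sw {φ : V → ℂ} (h : Test φ) : SchwartzMap (Fq V) ℂ :=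
  HasCompactSupport.toSchwartzMap (f := fun w => φ (toEuclidean.symm w))
    (h.cpt.comp_homeomorph (toEuclidean (E := V)).symm.toHomeomorph)
    (h.smooth.comp (toEuclidean (E := V)).symm.contDiff)

theorem Test.ft_eq {φ : V → ℂ} (h : Test φ) : ft φ = (𝓕 h.sw : SchwartzMap (Fq V) ℂ) := rfl

theorem Test.integrable {φ : V → ℂ} (h : Test φ) : Integrable (ft φ) := by
  rw [h.ft_eq]; exact SchwartzMap.integrable _

theorem Test.integrable1 {φ : V → ℂ} (h : Test φ) : Integrable fun ξ => ‖ξ‖ * ‖ft φ ξ‖ := by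
  rw [h.ft_eq]; simpa using SchwartzMap.integrable_pow_mul volume (𝓕 h.sw) 1

theorem Test.inv {φ : V → ℂ} (h : Test φ) (v : V) :
    φ v = ∫ ξ, ft φ ξ * Complex.exp (((2 * π * ⟪ξ, toEuclidean v⟫ : ℝ) : ℂ) * Complex.I) := by
  have h1 := congrFun (h.sw.continuous.fourierInv_fourier_eq h.sw.integrable h.integrable)
    (toEuclidean v)
  rw [Real.fourierInv_eq'] at h1
  simp only [smul_eq_mul, mul_comm (Complex.exp _)] at h1
  refine Eq.trans ?_ h1.symm
  simp [Test.sw]

section ex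

variable {X : Type} [TopologicalSpace X]

/-- exponentials -/
noncomputable def ex (h : C(X, V)) (ξ : Fq V) : C(X, ℂ) :=
  ⟨fun x => Complex.exp (((2 * π * ⟪ξ, toEuclidean (h x)⟫ : ℝ) : ℂ) * Complex.I), by fun_prop⟩

theorem ex_apply (h : C(X, V)) (ξ : Fq V) (x : X) :
    ex h ξ x = Complex.exp (((2 * π * ⟪ξ, toEuclidean (h x)⟫ : ℝ) : ℂ) * Complex.I) := rfl

theorem ex_add (h h' : C(X, V)) (ξ : Fq V) : ex (h + h') ξ = ex h ξ * ex h' ξ := by
  ext x
  simp only [ex_apply, ContinuousMap.add_apply, map_add, inner_add_right, ContinuousMap.mul_apply,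
    ← Complex.exp_add]
  congr 1; push_cast; ring

theorem ex_zero (ξ : Fq V) : ex (0 : C(X, V)) ξ = 1 := by ext x; simp [ex_apply]

theorem star_ex (h : C(X, V)) (ξ : Fq V) : star (ex h ξ) = ex (-h) ξ := by
  ext x
  simp only [ContinuousMap.star_apply, ex_apply, ContinuousMap.neg_apply, map_neg, inner_neg_right,
    RCLike.star_def, ← Complex.exp_conj, map_mul, Complex.conj_ofReal, Complex.conj_I]
  congr 1; push_cast; ring

theorem continuous_ex (h : C(X, V)) : Continuous (ex h) :=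
  ContinuousMap.continuous_of_continuous_uncurry _ (by
    change Continuous fun q : Fq V × X =>
      Complex.exp (((2 * π * ⟪q.1, toEuclidean (h q.2)⟫ : ℝ) : ℂ) * Complex.I)
    fun_prop)

variable [CompactSpace X]

theorem norm_ex_mul_le (h : C(X, V)) (ξ : Fq V) (f : C(X, ℂ)) : ‖ex h ξ * f‖ ≤ ‖f‖ :=
  (ContinuousMap.norm_le _ (norm_nonneg _)).2 fun x => by
    rw [ContinuousMap.mul_apply, norm_mul, ex_apply, Complex.norm_exp_ofReal_mul_I, one_mul]
    exact f.norm_coe_le_norm x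

theorem norm_ex_mul_sub_le (h h' : C(X, V)) (ξ : Fq V) (f : C(X, ℂ)) :
    ‖ex h ξ * f - ex h' ξ * f‖ ≤
      2 * π * ‖(toEuclidean (E := V) : V →L[ℝ] Fq V)‖ * ‖ξ‖ * ‖h - h'‖ * ‖f‖ := by
  have e : ex h ξ * f - ex h' ξ * f = ex h' ξ * ((ex (h - h') ξ - 1) * f) := by
    rw [sub_mul, one_mul, mul_sub, ← mul_assoc, ← ex_add, add_sub_cancel]
  rw [e]
  refine (norm_ex_mul_le _ _ _).trans ((norm_mul_le _ _).trans (mul_le_mul_of_nonneg_right
    ((ContinuousMap.norm_le _ (by positivity)).2 fun x => ?_) (norm_nonneg _)))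
  rw [ContinuousMap.sub_apply, ex_apply, ContinuousMap.one_apply, mul_comm _ Complex.I]
  refine Real.norm_exp_I_mul_ofReal_sub_one_le.trans ?_
  have h1 := abs_real_inner_le_norm ξ (toEuclidean ((h - h') x))
  have h2 := (toEuclidean (E := V) : V →L[ℝ] Fq V).le_opNorm ((h - h') x)
  have h3 := (h - h').norm_coe_le_norm x
  rw [Real.norm_eq_abs, abs_mul, abs_of_pos Real.two_pi_pos, mul_assoc (2 * π),
    mul_assoc (2 * π)]
  refine mul_le_mul_of_nonneg_left (h1.trans ?_) Real.two_pi_pos.le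
  rw [mul_comm _ ‖ξ‖, mul_assoc]
  exact mul_le_mul_of_nonneg_left (h2.trans (mul_le_mul_of_nonneg_left h3 (norm_nonneg _)))
    (norm_nonneg _)

end ex

variable {ι : Type} [Fintype ι] {X : ι → Type} [∀ i, TopologicalSpace (X i)]
  [∀ i, CompactSpace (X i)] {E : Type*} [NormedAddCommGroup E] [NormedSpace ℂ E]

/-- the integral of the kernel `φ (∑ i, h i (x i)) * ∏ i, f i (x i)` -/
noncomputable def moi (W : Word X E) (φ : V → ℂ) (h : ∀ i, C(X i, V)) (f : ∀ i, C(X i, ℂ)) : E :=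
  ∫ ξ, ft φ ξ • W fun i => ex (h i) ξ * f i

theorem norm_word_ex_le (W : Word X E) (h : ∀ i, C(X i, V)) (f : ∀ i, C(X i, ℂ)) (ξ : Fq V) :
    ‖W fun i => ex (h i) ξ * f i‖ ≤ ‖W‖ * ∏ i, ‖f i‖ :=
  (W.le_opNorm _).trans (mul_le_mul_of_nonneg_left (Finset.prod_le_prod
    (fun _ _ => norm_nonneg _) fun _ _ => norm_ex_mul_le _ _ _) (norm_nonneg _))

omit [Fintype ι] in
theorem continuous_word_ex (W : Word X E) (h : ∀ i, C(X i, V)) (f : ∀ i, C(X i, ℂ)) :
    Continuous fun ξ => W fun i => ex (h i) ξ * f i :=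
  W.cont.comp (continuous_pi fun i => (continuous_ex (h i)).mul continuous_const)

variable {φ : V → ℂ}

theorem Test.integrable_moi (hφ : Test φ) (W : Word X E) (h : ∀ i, C(X i, V))
    (f : ∀ i, C(X i, ℂ)) : Integrable fun ξ => ft φ ξ • W fun i => ex (h i) ξ * f i :=
  (hφ.integrable.norm.mul_const (‖W‖ * ∏ i, ‖f i‖)).mono'
    (hφ.integrable.1.smul (continuous_word_ex W h f).aestronglyMeasurable)
    (Eventually.of_forall fun ξ => by
      rw [norm_smul]; exact mul_le_mul_of_nonneg_left (norm_word_ex_le W h f ξ) (norm_nonneg _))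

theorem Test.hasMOI [CompleteSpace E] (hφ : Test φ) (W : Word X E) (h : ∀ i, C(X i, V))
    (f : ∀ i, C(X i, ℂ)) :
    HasMOI W (fun x => φ (∑ i, h i (x i)) * ∏ i, f i (x i)) (moi W φ h f) := by
  have h1 := hasMOI_integral W volume (ft φ) (fun ξ i => ex (h i) ξ * f i) hφ.integrable.1
    (fun i => ((continuous_ex (h i)).mul continuous_const).aestronglyMeasurable)
    ((hφ.integrable.norm.mul_const (∏ i, ‖f i‖)).mono' (hφ.integrable.1.norm.mul
      (continuous_finsetProd _ fun i _ =>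
        ((continuous_ex (h i)).mul continuous_const).norm).aestronglyMeasurable)
      (Eventually.of_forall fun ξ => by
        rw [Real.norm_of_nonneg (by positivity)]
        exact mul_le_mul_of_nonneg_left (Finset.prod_le_prod (fun _ _ => norm_nonneg _)
          fun _ _ => norm_ex_mul_le _ _ _) (norm_nonneg _)))
  refine Eq.mp (congrArg (HasMOI W · (moi W φ h f)) (funext fun x => Eq.symm ?_)) h1
  rw [hφ.inv, ← integral_mul_const]
  refine integral_congr_ae (Eventually.of_forall fun ξ => ?_)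
  simp only [ContinuousMap.mul_apply, Finset.prod_mul_distrib, ex_apply, ← Complex.exp_sum,
    map_sum, inner_sum, Finset.mul_sum, Complex.ofReal_sum, Finset.sum_mul, mul_assoc]

theorem Test.norm_moi_le (hφ : Test φ) (W : Word X E) (h : ∀ i, C(X i, V)) (f : ∀ i, C(X i, ℂ)) :
    ‖moi W φ h f‖ ≤ A φ * (‖W‖ * ∏ i, ‖f i‖) := by
  rw [A, ← integral_mul_const]
  exact norm_integral_le_of_norm_le (hφ.integrable.norm.mul_const _)
    (Eventually.of_forall fun ξ => by
      rw [norm_smul]; exact mul_le_mul_of_nonneg_left (norm_word_ex_le W h f ξ) (norm_nonneg _))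

theorem norm_word_sub_le (W : Word X E) (f g : ∀ i, C(X i, ℂ)) (b r : ι → ℝ)
    (hf : ∀ i, ‖f i‖ ≤ b i) (hg : ∀ i, ‖g i‖ ≤ b i)
    (h : ∀ i, ‖f i - g i‖ ≤ r i * b i) : ‖W f - W g‖ ≤ (∑ i, r i) * (‖W‖ * ∏ i, b i) := by
  classical
  refine (W.norm_image_sub_le' f g).trans ?_
  rw [mul_left_comm, Finset.sum_mul]
  refine mul_le_mul_of_nonneg_left (Finset.sum_le_sum fun i _ => ?_) (norm_nonneg _)
  have h1 : r i * ∏ j, b j = ∏ j, if j = i then r i * b i else b j := by
    rw [← Finset.mul_prod_erase _ _ (Finset.mem_univ i),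
      ← Finset.mul_prod_erase _ _ (Finset.mem_univ i), if_pos rfl, mul_assoc]
    congr 2
    exact Finset.prod_congr rfl fun j hj => (if_neg (Finset.ne_of_mem_erase hj)).symm
  rw [h1]
  refine Finset.prod_le_prod (fun j _ => by split_ifs <;> positivity) fun j _ => ?_
  split_ifs with hj
  · exact h i
  · exact max_le (hf j) (hg j)

/-- Lipschitz dependence on the phases. -/
theorem Test.norm_moi_sub_le (hφ : Test φ) (W : Word X E) (h h' : ∀ i, C(X i, V))
    (f : ∀ i, C(X i, ℂ)) :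
    ‖moi W φ h f - moi W φ h' f‖ ≤ A1 φ * (∑ i, ‖h i - h' i‖) * (‖W‖ * ∏ i, ‖f i‖) := by
  rw [moi, moi, ← integral_sub (hφ.integrable_moi W h f) (hφ.integrable_moi W h' f), A1,
    ← integral_mul_const, ← integral_mul_const]
  refine norm_integral_le_of_norm_le (((hφ.integrable1.const_mul _).mul_const _).mul_const _)
    (Eventually.of_forall fun ξ => ?_)
  rw [← smul_sub, norm_smul]
  refine (mul_le_mul_of_nonneg_left (norm_word_sub_le W _ _ (fun i => ‖f i‖)
    (fun i => 2 * π * ‖(toEuclidean (E := V) : V →L[ℝ] Fq V)‖ * ‖ξ‖ * ‖h i - h' i‖)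
    (fun _ => norm_ex_mul_le _ _ _) (fun _ => norm_ex_mul_le _ _ _)
    fun _ => norm_ex_mul_sub_le _ _ _ _) (norm_nonneg _)).trans (le_of_eq ?_)
  rw [← Finset.mul_sum]; ring

theorem Test.continuous_moi (hφ : Test φ) (W : Word X E) (f : ∀ i, C(X i, ℂ)) :
    Continuous fun h : ∀ i, C(X i, V) => moi W φ h f := by
  refine continuous_iff_continuousAt.2 fun h => tendsto_iff_norm_sub_tendsto_zero.2 ?_
  refine squeeze_zero (fun _ => norm_nonneg _) (fun h' => hφ.norm_moi_sub_le W h' h f) ?_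
  have : Continuous fun h' : ∀ i, C(X i, V) =>
      A1 φ * (∑ i, ‖h' i - h i‖) * (‖W‖ * ∏ i, ‖f i‖) := by fun_prop
  simpa using this.tendsto h

theorem Test.map_moi [CompleteSpace E] {F : Type*} [NormedAddCommGroup F] [NormedSpace ℂ F]
    [CompleteSpace F] (hφ : Test φ) (W : Word X E) (h : ∀ i, C(X i, V)) (f : ∀ i, C(X i, ℂ))
    (L : E →L[ℂ] F) : L (moi W φ h f) = ∫ ξ, ft φ ξ • L (W fun i => ex (h i) ξ * f i) := by
  rw [moi, ← L.integral_comp_comm (hφ.integrable_moi W h f)]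
  simp only [map_smul]

/-- a bump function on the line -/
theorem exists_bump : ∃ χ : ℝ → ℝ, ContDiff ℝ ∞ χ ∧ HasCompactSupport χ ∧
    (∀ t, |t| ≤ 1 → χ t = 1) ∧ (∀ t, 2 ≤ |t| → χ t = 0) ∧ (∀ t, χ (-t) = χ t) ∧
    ∀ t, 0 ≤ χ t ∧ χ t ≤ 1 := by
  let b : ContDiffBump (0 : ℝ) := ⟨1, 2, one_pos, one_lt_two⟩
  refine ⟨b, b.contDiff, b.hasCompactSupport, fun t ht => b.one_of_mem_closedBall (by simpa),
    fun t ht => b.zero_of_le_dist (by simpa), b.neg, fun t => ⟨b.nonneg, b.le_one⟩⟩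

variable [∀ i, PseudoMetrizableSpace (X i)] [CompleteSpace E]

/-- Synthesis for one additive equation: if `∑ i, h i (x i) = 0` on the part of the support met
by `f`, the kernel `φ (∑ i, h i (x i))` acts as the scalar `φ 0`. -/
theorem Test.moi_eq_of_supp {φ : ℝ → ℂ} (hφ : Test φ) (W : Word X E) (h : ∀ i, C(X i, ℝ))
    (f : ∀ i, C(X i, ℂ))
    (hs : ∀ x ∈ supp W, (∀ i, x i ∈ tsupport (f i)) → ∑ i, h i (x i) = 0) :
    moi W φ h f = φ 0 • W f := by
  classical
  obtain ⟨χ, h1, h2, h3, h4, -, -⟩ := exists_bump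
  rcases isEmpty_or_nonempty ι with hι | ⟨⟨i₀⟩⟩
  · refine (hφ.hasMOI W h f).unique ?_
    simpa using (hasMOI_prod W f).smul (φ 0)
  let G : ℝ × ℝ → ℂ := fun q => (φ (q.1 * q.2) - φ 0) * (χ q.1 * χ q.2 : ℝ)
  have hG : Test G := ⟨((hφ.smooth.comp (by fun_prop)).sub contDiff_const).mul
      (Complex.ofRealCLM.contDiff.comp ((h1.comp contDiff_fst).mul (h1.comp contDiff_snd))),
    HasCompactSupport.intro ((isCompact_Icc (a := -2) (b := 2)).prod
      (isCompact_Icc (a := -2) (b := 2))) fun q hq => by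
        have : 2 ≤ |q.1| ∨ 2 ≤ |q.2| := by
          by_contra hn
          simp only [not_or, not_le, abs_lt] at hn
          exact hq ⟨⟨hn.1.1.le, hn.1.2.le⟩, hn.2.1.le, hn.2.2.le⟩
        rcases this with h | h <;> simp [G, h4 _ h]⟩
  let c : ℝ → ∀ i, C(X i, ℝ) := fun ε i => ContinuousMap.const _ (if i = i₀ then ε else 0)
  have hc : ∀ ε (x : ∀ i, X i), ∑ i, c ε i (x i) = ε := fun ε x => by simp [c]
  have key : ∀ ε : ℝ, 0 < ε → ε ≤ 1 → ‖moi W φ h f - φ 0 • W f‖ ≤
      A1 G * ε * (‖W‖ * ∏ i, ‖f i‖) := fun ε hε hε1 => by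
    let a : ℝ → ∀ i, C(X i, ℝ × ℝ) := fun t i => (c t i).prodMk (ε⁻¹ • h i)
    have ha : ∀ t (x : ∀ i, X i), ∑ i, a t i (x i) = (t, ε⁻¹ * ∑ i, h i (x i)) := fun t x => by
      ext
      · simp only [a, Prod.fst_sum]; exact hc t x
      · simp [a, Prod.snd_sum, Finset.mul_sum]
    have e0 : moi W G (a 0) f = 0 := (hG.hasMOI W (a 0) f).unique (by
      simpa only [ha, G, zero_mul, sub_self] using hasMOI_zero)
    have e1 : moi W φ h f - φ 0 • W f = moi W G (a ε) f := by
      refine ((hφ.hasMOI W h f).sub ((hasMOI_prod W f).smul (φ 0))).eq_of_germ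
        (hG.hasMOI W (a ε) f) (eventually_nhdsSet_iff_forall.2 fun x hx => ?_)
      by_cases hxf : ∀ i, x i ∈ tsupport (f i)
      · have hu : Continuous fun y : ∀ i, X i => |ε⁻¹ * ∑ i, h i (y i)| := by fun_prop
        have := (hu.tendsto x).eventually_le_const (u := 1) (by simp [hs x hx hxf])
        filter_upwards [this] with y hy
        simp only [ha, G, mul_inv_cancel_left₀ hε.ne', h3 _ hy, h3 ε (by rwa [abs_of_pos hε])]
        push_cast; ring
      · obtain ⟨i, hi⟩ := not_forall.1 hxf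
        have := (continuous_apply i).continuousAt.eventually (notMem_tsupport_iff_eventuallyEq.1 hi)
        filter_upwards [this] with y hy
        rw [Finset.prod_eq_zero (Finset.mem_univ i) hy]; simp
    have e2 := hG.norm_moi_sub_le W (a ε) (a 0) f
    rw [e0, sub_zero, ← e1] at e2
    refine e2.trans (mul_le_mul_of_nonneg_right (mul_le_mul_of_nonneg_left ?_ (A1_nonneg _))
      (by positivity))
    refine (Finset.sum_le_sum (g := fun i => if i = i₀ then ε else 0) fun i _ =>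
      (ContinuousMap.norm_le _ (by split_ifs <;> positivity)).2 fun x => ?_).trans (by simp)
    by_cases hi : i = i₀ <;> simp [a, c, hi, Prod.norm_def, abs_of_pos hε, hε.le]
  refine sub_eq_zero.1 (norm_le_zero_iff.1 (ge_of_tendsto (f := fun ε : ℝ =>
    A1 G * ε * (‖W‖ * ∏ i, ‖f i‖)) (x := 𝓝[>] 0) ?_ ?_))
  · have : Continuous fun ε : ℝ => A1 G * ε * (‖W‖ * ∏ i, ‖f i‖) := by fun_prop
    simpa using (this.tendsto 0).mono_left nhdsWithin_le_nhds
  · filter_upwards [Ioc_mem_nhdsGT (zero_lt_one' ℝ)] with ε hε using key ε hε.1 hε.2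

end Crest.Agent.N111.MOI
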