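import Crest.Agent.N111.MOI.Four

/-!
# Row 111: representations of `C(X)`, joint calculus, words of operators (helper45)
-/

set_option autoImplicit false

namespace Crest.Agent.N111.MOI

open Filter Topology MeasureTheory TopologicalSpace WeakDual
open scoped BigOperators ContDiff

/-- unital `*`-representations of `C(X)` -/
abbrev Rep (X : Type) [TopologicalSpace X] (A : Type*) [CStarAlgebra A] : Type _ :=
  C(X, ℂ) →⋆ₐ[ℂ] A

section rep

variable {X Y : Type} [TopologicalSpace X] [TopologicalSpace Y] {A : Type*} [CStarAlgebra A]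

/-- push-forward of a representation along a continuous map -/
noncomputable def Rep.map (π : Rep X A) (g : C(X, Y)) : Rep Y A := π.comp (g.compStarAlgHom' ℂ ℂ)

@[simp] theorem Rep.map_apply (π : Rep X A) (g : C(X, Y)) (f : C(Y, ℂ)) :
    π.map g f = π (f.comp g) := rfl

theorem Rep.comm (π : Rep X A) (f g : C(X, ℂ)) : Commute (π f) (π g) :=
  (Commute.all f g).map π

variable [CompactSpace X] [CompactSpace Y]

theorem Rep.norm_le (π : Rep X A) (f : C(X, ℂ)) : ‖π f‖ ≤ ‖f‖ :=
  NonUnitalStarAlgHom.norm_apply_le π f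

/-- a representation as a continuous linear map -/
noncomputable def Rep.clm (π : Rep X A) : C(X, ℂ) →L[ℂ] A :=
  (π.toAlgHom.toLinearMap).mkContinuous 1 fun f => by simpa using π.norm_le f

@[simp] theorem Rep.clm_apply (π : Rep X A) (f : C(X, ℂ)) : π.clm f = π f := rfl

theorem Rep.norm_clm_le (π : Rep X A) : ‖π.clm‖ ≤ 1 :=
  LinearMap.mkContinuous_norm_le _ zero_le_one _

theorem Rep.continuous (π : Rep X A) : Continuous π := π.clm.continuous

/-- Stone-Weierstrass for intertwiners. -/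
theorem intertwine_of_gen (π π' : Rep X A) (T : A) (S : Set C(X, ℂ))
    (sep : ∀ x y : X, x ≠ y → ∃ f ∈ S, f x ≠ f y) (h : ∀ f ∈ S, π f * T = T * π' f)
    (hs : ∀ f ∈ S, π (star f) * T = T * π' (star f)) (F : C(X, ℂ)) : π F * T = T * π' F := by
  have h1 : ∀ F ∈ StarAlgebra.adjoin ℂ S,
      π F * T = T * π' F ∧ π (star F) * T = T * π' (star F) := fun F hF => by
    induction hF using StarAlgebra.adjoin_induction with
    | mem f hf => exact ⟨h f hf, hs f hf⟩
    | algebraMap r => simp [Algebra.algebraMap_eq_smul_one]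
    | add f g _ _ a b => simp only [star_add, map_add, add_mul, mul_add, a.1, a.2, b.1, b.2, and_self]
    | mul f g _ _ a b =>
      simp only [star_mul, map_mul]
      exact ⟨by rw [mul_assoc, b.1, ← mul_assoc, a.1, mul_assoc],
        by rw [mul_assoc, a.2, ← mul_assoc, b.2, mul_assoc]⟩
    | star f _ a => exact ⟨a.2, by simpa only [star_star] using a.1⟩
  have h2 := ContinuousMap.starSubalgebra_topologicalClosure_eq_top_of_separatesPoints
    (StarAlgebra.adjoin ℂ S) fun x y hxy => by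
      obtain ⟨f, hf, h⟩ := sep x y hxy
      exact ⟨f, ⟨f, StarAlgebra.subset_adjoin ℂ S hf, rfl⟩, h⟩
  have h3 : F ∈ closure (StarAlgebra.adjoin ℂ S : Set C(X, ℂ)) := by
    rw [← StarSubalgebra.topologicalClosure_coe, h2]; trivial
  exact closure_minimal (t := {F | π F * T = T * π' F}) (fun F hF => (h1 F hF).1)
    (isClosed_eq (π.continuous.mul continuous_const) (continuous_const.mul π'.continuous)) h3

end rep

section joint

variable {ι : Type} {X : ι → Type} [∀ i, TopologicalSpace (X i)] [∀ i, CompactSpace (X i)]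
  [∀ i, T2Space (X i)] {A : Type*} [CStarAlgebra A]

/-- coordinate projections -/
def ev (i : ι) : C(∀ i, X i, X i) := ⟨fun x => x i, continuous_apply i⟩

omit [∀ i, CompactSpace (X i)] [∀ i, T2Space (X i)] in
@[simp] theorem ev_apply (i : ι) (x : ∀ i, X i) : ev i x = x i := rfl

/-- The joint functional calculus of a commuting family. -/
theorem exists_joint (π : ∀ i, Rep (X i) A) (hc : ∀ i j f g, Commute (π i f) (π j g)) :
    ∃ Θ : Rep (∀ i, X i) A, ∀ i, Θ.map (ev i) = π i := by
  let s : Set A := ⋃ i, Set.range (π i)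
  have hs : ∀ a ∈ s, ∀ b ∈ s, a * b = b * a := by
    simp only [s, Set.mem_iUnion]
    rintro _ ⟨i, f, rfl⟩ _ ⟨j, g, rfl⟩
    exact hc i j f g
  have : IsMulCommutative (StarAlgebra.adjoin ℂ s) :=
    StarAlgebra.isMulCommutative_adjoin ℂ hs fun a ha b hb => hs a ha _ (by
      obtain ⟨j, g, rfl⟩ := Set.mem_iUnion.1 hb
      exact Set.mem_iUnion.2 ⟨j, star g, map_star _ _⟩)
  let S : StarSubalgebra ℂ A := (StarAlgebra.adjoin ℂ s).topologicalClosure
  have hS : IsClosed (S : Set A) := StarSubalgebra.isClosed_topologicalClosure _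
  let _ : CommRing S := (StarAlgebra.adjoin ℂ s).commRingTopologicalClosure fun a b =>
    this.is_comm.comm a b
  let _ : CommCStarAlgebra S := { }
  let ρ : ∀ i, C(X i, ℂ) →⋆ₐ[ℂ] S := fun i => (π i).codRestrict S fun f =>
    StarSubalgebra.le_topologicalClosure _
      (StarAlgebra.subset_adjoin ℂ s (Set.mem_iUnion.2 ⟨i, f, rfl⟩))
  let Ψ : C(characterSpace ℂ S, ∀ i, X i) := ContinuousMap.pi fun i =>
    ((CharacterSpace.homeoEval (X i) ℂ).symm : C(_, _)).comp (CharacterSpace.compContinuousMap (ρ i))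
  refine ⟨S.subtype.comp (((gelfandStarTransform S).symm : C(characterSpace ℂ S, ℂ) →⋆ₐ[ℂ] S).comp
    (Ψ.compStarAlgHom' ℂ ℂ)), fun i => StarAlgHom.ext fun f => ?_⟩
  have h1 : (f.comp (ev i)).comp Ψ = gelfandStarTransform S (ρ i f) := by
    ext χ
    have := (CharacterSpace.homeoEval (X i) ℂ).apply_symm_apply
      (CharacterSpace.compContinuousMap (ρ i) χ)
    exact congrArg (fun φ : characterSpace ℂ C(X i, ℂ) => φ f) this
  change (((gelfandStarTransform S).symm ((f.comp (ev i)).comp Ψ) : S) : A) = π i f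
  rw [h1, StarAlgEquiv.symm_apply_apply]; rfl

theorem intertwine_pi (Θ Θ' : Rep (∀ i, X i) A) (T : A)
    (h : ∀ i (f : C(X i, ℂ)), Θ (f.comp (ev i)) * T = T * Θ' (f.comp (ev i))) (F : C(∀ i, X i, ℂ)) :
    Θ F * T = T * Θ' F := by
  refine intertwine_of_gen Θ Θ' T {F | ∃ (i : ι) (f : C(X i, ℂ)), F = f.comp (ev i)}
    (fun x y hxy => ?_) ?_ ?_ F
  · obtain ⟨i, hi⟩ := Function.ne_iff.1 hxy
    obtain ⟨f, h0, h1, -⟩ := exists_continuous_zero_one_of_isClosed (isClosed_singleton (x := x i))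
      (isClosed_singleton (x := y i)) (Set.disjoint_singleton.2 hi)
    exact ⟨_, ⟨i, ofR f, rfl⟩, by simp [h0 rfl, h1 rfl]⟩
  · rintro _ ⟨i, f, rfl⟩; exact h i f
  · rintro _ ⟨i, f, rfl⟩; exact h i (star f)

variable {Y Z : Type} [TopologicalSpace Y] [CompactSpace Y] [T2Space Y] [TopologicalSpace Z]
  [CompactSpace Z] [T2Space Z]

theorem intertwine_prod (Θ Θ' : Rep (Y × Z) A) (T : A)
    (h₁ : ∀ f : C(Y, ℂ), Θ (f.comp .fst) * T = T * Θ' (f.comp .fst))
    (h₂ : ∀ f : C(Z, ℂ), Θ (f.comp .snd) * T = T * Θ' (f.comp .snd)) (F : C(Y × Z, ℂ)) :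
    Θ F * T = T * Θ' F := by
  refine intertwine_of_gen Θ Θ' T ({F | ∃ f : C(Y, ℂ), F = f.comp .fst} ∪
    {F | ∃ f : C(Z, ℂ), F = f.comp .snd}) (fun x y hxy => ?_) ?_ ?_ F
  · by_cases h : x.1 = y.1
    · obtain ⟨f, h0, h1, -⟩ := exists_continuous_zero_one_of_isClosed (isClosed_singleton (x := x.2))
        (isClosed_singleton (x := y.2)) (Set.disjoint_singleton.2 fun h' => hxy (Prod.ext h h'))
      exact ⟨_, Or.inr ⟨ofR f, rfl⟩, by simp [h0 rfl, h1 rfl]⟩
    · obtain ⟨f, h0, h1, -⟩ := exists_continuous_zero_one_of_isClosed (isClosed_singleton (x := x.1))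
        (isClosed_singleton (x := y.1)) (Set.disjoint_singleton.2 h)
      exact ⟨_, Or.inl ⟨ofR f, rfl⟩, by simp [h0 rfl, h1 rfl]⟩
  · rintro _ (⟨f, rfl⟩ | ⟨f, rfl⟩)
    exacts [h₁ f, h₂ f]
  · rintro _ (⟨f, rfl⟩ | ⟨f, rfl⟩)
    exacts [h₁ (star f), h₂ (star f)]

theorem exists_joint₂ (π : Rep Y A) (ρ : Rep Z A) (hc : ∀ f g, Commute (π f) (ρ g)) :
    ∃ Θ : Rep (Y × Z) A, Θ.map .fst = π ∧ Θ.map .snd = ρ := by
  let T : Bool → Type := fun b => match b with | true => Y | false => Z
  let _ : ∀ b, TopologicalSpace (T b) := fun b => match b with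
    | true => ‹TopologicalSpace Y› | false => ‹TopologicalSpace Z›
  have _ : ∀ b, CompactSpace (T b) := fun b => match b with
    | true => ‹CompactSpace Y› | false => ‹CompactSpace Z›
  have _ : ∀ b, T2Space (T b) := fun b => match b with
    | true => ‹T2Space Y› | false => ‹T2Space Z›
  obtain ⟨Θ, h⟩ := exists_joint (X := T) (fun b => match b with | true => π | false => ρ)
    fun i j => match i, j with
      | true, true => π.comm
      | true, false => hc
      | false, true => fun f g => (hc g f).symm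
      | false, false => ρ.comm
  exact ⟨Θ.map ((ev (X := T) true).prodMk (ev (X := T) false)), h true, h false⟩

/-- the joint representation of two commuting representations -/
noncomputable def Rep.joint (π : Rep Y A) (ρ : Rep Z A) (h : ∀ f g, Commute (π f) (ρ g)) :
    Rep (Y × Z) A := (exists_joint₂ π ρ h).choose

@[simp] theorem Rep.joint_fst (π : Rep Y A) (ρ : Rep Z A) (h : ∀ f g, Commute (π f) (ρ g))
    (f : C(Y, ℂ)) : π.joint ρ h (f.comp .fst) = π f :=
  DFunLike.congr_fun (exists_joint₂ π ρ h).choose_spec.1 f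

@[simp] theorem Rep.joint_snd (π : Rep Y A) (ρ : Rep Z A) (h : ∀ f g, Commute (π f) (ρ g))
    (g : C(Z, ℂ)) : π.joint ρ h (g.comp .snd) = ρ g :=
  DFunLike.congr_fun (exists_joint₂ π ρ h).choose_spec.2 g

theorem Rep.joint_intertwine {π π' : Rep Y A} {ρ ρ' : Rep Z A} (h : ∀ f g, Commute (π f) (ρ g))
    (h' : ∀ f g, Commute (π' f) (ρ' g)) {T : A} (h₁ : ∀ f, π f * T = T * π' f)
    (h₂ : ∀ g, ρ g * T = T * ρ' g) (F : C(Y × Z, ℂ)) : π.joint ρ h F * T = T * π'.joint ρ' h' F :=
  intertwine_prod _ _ T (by simpa using h₁) (by simpa using h₂) F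

end joint

section spec

variable {X : Type} [TopologicalSpace X] [CompactSpace X] {A : Type*} [CStarAlgebra A]

/-- the support (spectrum) of a representation -/
def Rep.spec (π : Rep X A) : Set X :=
  {x | ¬ ∃ U ∈ 𝓝 x, ∀ f : C(X, ℂ), tsupport f ⊆ U → π f = 0}

omit [CompactSpace X] in
theorem Rep.isClosed_spec (π : Rep X A) : IsClosed π.spec :=
  isOpen_compl_iff.1 (isOpen_iff_mem_nhds.2 fun _ hx => by
    obtain ⟨U, hU, h⟩ := not_not.1 hx
    exact (eventually_mem_nhds_iff.2 hU).mono fun y hy => not_not.2 ⟨U, hy, h⟩)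

variable [T2Space X]

theorem Rep.eq_zero_of_disjoint (π : Rep X A) {f : C(X, ℂ)} (h : Disjoint (tsupport f) π.spec) :
    π f = 0 := by
  have h1 : ∀ x ∈ tsupport f, ∃ U ∈ 𝓝 x, ∀ g : C(X, ℂ), tsupport g ⊆ U → π g = 0 :=
    fun x hx => not_not.1 (Set.disjoint_left.1 h hx)
  choose! U hU hU' using h1
  obtain ⟨t, ht, hc⟩ := (isClosed_tsupport f).isCompact.elim_nhds_subcover
    (fun x => interior (U x)) fun x hx => interior_mem_nhds.2 (hU x hx)
  obtain ⟨ρ, hρ⟩ := PartitionOfUnity.exists_isSubordinate (ι := t) (isClosed_tsupport f)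
    (fun j => interior (U j)) (fun _ => isOpen_interior) fun x hx => by
      obtain ⟨y, hy, h⟩ := Set.mem_iUnion₂.1 (hc hx)
      exact Set.mem_iUnion.2 ⟨⟨y, hy⟩, h⟩
  have e : f = ∑ j : t, ofR (ρ j) * f := by
    ext x
    by_cases hx : x ∈ tsupport f
    · have := ρ.sum_eq_one hx
      rw [finsum_eq_sum_of_fintype] at this
      simp only [ContinuousMap.coe_sum, Finset.sum_apply, ContinuousMap.mul_apply, ofR_apply,
        ← Finset.sum_mul, ← Complex.ofReal_sum]
      rw [show (∑ j : t, (ρ j) x) = 1 from this]; simp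
    · simp [image_eq_zero_of_notMem_tsupport hx]
  rw [e, map_sum]
  refine Finset.sum_eq_zero fun j _ => ?_
  rw [map_mul, hU' j (ht j j.2) _ (by rw [tsupport_ofR]; exact (hρ j).trans interior_subset),
    zero_mul]

/-- The norm only sees the spectrum. -/
theorem Rep.norm_le_of_spec (π : Rep X A) {f : C(X, ℂ)} {C : ℝ} (hC : 0 ≤ C)
    (h : ∀ x ∈ π.spec, ‖f x‖ ≤ C) : ‖π f‖ ≤ C := by
  refine le_of_forall_pos_le_add fun ε hε => ?_
  obtain ⟨g, g0, g1, hg⟩ := exists_continuous_zero_one_of_isClosed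
    (isClosed_le (f := fun x => ‖f x‖) (g := fun _ => C + ε / 2) (by fun_prop) continuous_const)
    (isClosed_le (f := fun _ => C + ε) (g := fun x => ‖f x‖) continuous_const (by fun_prop))
    (Set.disjoint_left.2 fun x (a : ‖f x‖ ≤ C + ε / 2) (b : C + ε ≤ ‖f x‖) => by linarith)
  have h1 : π (ofR g) = 0 := π.eq_zero_of_disjoint (Set.disjoint_left.2 fun x hx hs => by
    rw [tsupport_ofR] at hx
    have : tsupport g ⊆ {x | C + ε / 2 ≤ ‖f x‖} := closure_minimal
      (fun y hy => show C + ε / 2 ≤ ‖f y‖ from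
        le_of_not_ge fun h' => hy (g0 (show ‖f y‖ ≤ C + ε / 2 from h')))
      (isClosed_le continuous_const (by fun_prop))
    have h2 : C + ε / 2 ≤ ‖f x‖ := this hx
    linarith [h x hs])
  have h2 : π f = π ((1 - ofR g) * f) := by rw [map_mul, map_sub, h1, map_one, sub_zero, one_mul]
  rw [h2]
  refine (π.norm_le _).trans ((ContinuousMap.norm_le _ (by positivity)).2 fun x => ?_)
  simp only [ContinuousMap.mul_apply, ContinuousMap.sub_apply, ContinuousMap.one_apply, ofR_apply,
    norm_mul]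
  by_cases hx : C + ε ≤ ‖f x‖
  · rw [g1 hx]; simp; positivity
  · have h3 : ‖(1 : ℂ) - g x‖ ≤ 1 := by
      rw [← Complex.ofReal_one, ← Complex.ofReal_sub, Complex.norm_real,
        Real.norm_of_nonneg (by linarith [(hg x).2])]
      linarith [(hg x).1]
    nlinarith [norm_nonneg (f x), norm_nonneg ((1 : ℂ) - g x)]

theorem Rep.congr_spec (π : Rep X A) {f g : C(X, ℂ)} (h : ∀ x ∈ π.spec, f x = g x) : π f = π g := by
  rw [← sub_eq_zero, ← map_sub]
  exact norm_le_zero_iff.1 (π.norm_le_of_spec le_rfl fun x hx => by simp [h x hx])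

theorem Rep.spec_nonempty [Nontrivial A] (π : Rep X A) : π.spec.Nonempty := by
  by_contra h
  have := π.congr_spec (f := 1) (g := 0) fun x hx => (h ⟨x, hx⟩).elim
  simp at this

omit [CompactSpace X] [T2Space X] in
/-- If `π f = 0` then `f` vanishes on the spectrum. -/
theorem Rep.eq_zero_on_spec (π : Rep X A) {f : C(X, ℂ)} (h : π f = 0)
    {x : X} (hx : x ∈ π.spec) : f x = 0 := by
  by_contra h0
  refine hx ⟨{y | f y ≠ 0}, (isOpen_ne_fun f.continuous continuous_const).mem_nhds h0,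
    fun g hg => ?_⟩
  have hc : Continuous fun y => g y / f y := continuous_iff_continuousAt.2 fun y => by
    by_cases hy : f y = 0
    · have := notMem_tsupport_iff_eventuallyEq.1 fun h' => hg h' hy
      exact continuousAt_const.congr (this.mono fun z (hz : g z = 0) => by simp [hz] :
        (fun _ => (0 : ℂ)) =ᶠ[𝓝 y] fun z => g z / f z)
    · exact g.continuous.continuousAt.div f.continuous.continuousAt hy
  have e : g = ⟨_, hc⟩ * f := by
    ext y
    by_cases hy : f y = 0
    · simp [hy, image_eq_zero_of_notMem_tsupport fun h' => hg h' hy]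
    · simp [hy]
  rw [e, map_mul, h, mul_zero]

end spec

end Crest.Agent.N111.MOI
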